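import Mathlib

/-! # P054: distinct distances in dense subsets of the integer grid, dimension at least four -/

namespace Vale.Agent.Lib.P054

open Finset

variable {d : ℕ}

/-- Squared Euclidean distance of two integer points. -/
def sq (a b : Fin d → ℤ) : ℤ := ∑ i, (a i - b i) ^ 2

/-- `(t + x)^d < 3 t^d` if `d x ≤ t`. -/
lemma pow_lt_three (t x : ℕ) (ht : 1 ≤ t) (hx : d * x ≤ t) : (t + x) ^ d < 3 * t ^ d := by
  have htR : (0 : ℝ) < t := by exact_mod_cast ht
  have h1 : ((t : ℝ) + x) ^ d ≤ (t : ℝ) ^ d * Real.exp 1 := by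
    have h2 : (t : ℝ) + x = t * (1 + x / t) := by field_simp
    rw [h2, mul_pow]
    apply mul_le_mul_of_nonneg_left _ (by positivity)
    have h3 : (1 + (x : ℝ) / t) ≤ Real.exp ((x : ℝ) / t) := by
      have := Real.add_one_le_exp ((x : ℝ) / t)
      linarith
    calc (1 + (x : ℝ) / t) ^ d ≤ Real.exp ((x : ℝ) / t) ^ d :=
          pow_le_pow_left₀ (by positivity) h3 d
      _ = Real.exp (d * ((x : ℝ) / t)) := by rw [← Real.exp_nat_mul]
      _ ≤ Real.exp 1 := by
          apply Real.exp_le_exp.2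
          rw [← mul_div_assoc, div_le_one htR]
          exact_mod_cast hx
  have h4 : Real.exp 1 < 3 := lt_trans Real.exp_one_lt_d9 (by norm_num)
  have h5 : ((t : ℝ) + x) ^ d < 3 * (t : ℝ) ^ d := by
    have : (0 : ℝ) < (t : ℝ) ^ d := by positivity
    nlinarith
  exact_mod_cast h5

/-- Pigeonhole on the translates `Q + j v`, `0 ≤ j ≤ k`. -/
lemma exists_multiple (t k s : ℕ) (ht : 1 ≤ t) (Q : Finset (Fin d → ℤ))
    (hgrid : ∀ z ∈ Q, ∀ i, 1 ≤ z i ∧ z i ≤ t) (hk : 3 * t ^ d ≤ (k + 1) * Q.card)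
    (hs : d * (2 * k * s) ≤ t) (v : Fin d → ℤ) (hv : ∀ i, |v i| ≤ s) :
    ∃ j : ℕ, 1 ≤ j ∧ j ≤ k ∧ ∃ p ∈ Q, ∃ q ∈ Q, ∀ i, p i - q i = j * v i := by
  classical
  set B : Finset (Fin d → ℤ) :=
    Fintype.piFinset (fun _ => Finset.Icc (1 - (k * s : ℤ)) (t + (k * s : ℤ))) with hB
  have hBcard : B.card = (t + 2 * k * s) ^ d := by
    rw [hB, Fintype.card_piFinset]
    simp only [Int.card_Icc, Finset.prod_const, Finset.card_univ, Fintype.card_fin]
    congr 1
    have : (t : ℤ) + (k * s : ℤ) + 1 - (1 - (k * s : ℤ)) = ((t + 2 * k * s : ℕ) : ℤ) := by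
      push_cast; ring
    rw [this, Int.toNat_natCast]
  have hlt : B.card < ((Finset.range (k + 1)) ×ˢ Q).card := by
    rw [hBcard, Finset.card_product, Finset.card_range]
    exact lt_of_lt_of_le (pow_lt_three t (2 * k * s) ht hs) hk
  obtain ⟨x, hx, y, hy, hxy, hf⟩ := Finset.exists_ne_map_eq_of_card_lt_of_maps_to hlt
    (f := fun jp : ℕ × (Fin d → ℤ) => fun i => jp.2 i + jp.1 * v i) (by
      intro jp hjp
      have hjp' := Finset.mem_product.1 (Finset.mem_coe.1 hjp)
      have hj : jp.1 ≤ k := Nat.lt_succ_iff.1 (Finset.mem_range.1 hjp'.1)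
      rw [Finset.mem_coe, hB, Fintype.mem_piFinset]
      intro i
      obtain ⟨h1, h2⟩ := hgrid _ hjp'.2 i
      obtain ⟨h3, h4⟩ := abs_le.1 (hv i)
      have hjk : (jp.1 : ℤ) ≤ k := by exact_mod_cast hj
      have hj0 : (0 : ℤ) ≤ jp.1 := by positivity
      have hs0 : (0 : ℤ) ≤ s := by positivity
      have h5 : (jp.1 : ℤ) * v i ≤ k * s := by nlinarith
      have h6 : -(k * s : ℤ) ≤ (jp.1 : ℤ) * v i := by nlinarith
      rw [Finset.mem_Icc]
      constructor <;> linarith)
  have hx' := Finset.mem_product.1 hx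
  have hy' := Finset.mem_product.1 hy
  have hxk : x.1 ≤ k := Nat.lt_succ_iff.1 (Finset.mem_range.1 hx'.1)
  have hyk : y.1 ≤ k := Nat.lt_succ_iff.1 (Finset.mem_range.1 hy'.1)
  have hfi : ∀ i, x.2 i + x.1 * v i = y.2 i + y.1 * v i := fun i => congrFun hf i
  rcases lt_trichotomy x.1 y.1 with h | h | h
  · refine ⟨y.1 - x.1, by omega, by omega, x.2, hx'.2, y.2, hy'.2, fun i => ?_⟩
    have := hfi i
    rw [Nat.cast_sub h.le]
    linarith
  · exfalso
    apply hxy
    apply Prod.ext h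
    funext i
    have := hfi i
    rw [h] at this
    linarith
  · refine ⟨x.1 - y.1, by omega, by omega, y.2, hy'.2, x.2, hx'.2, fun i => ?_⟩
    have := hfi i
    rw [Nat.cast_sub h.le]
    linarith

/-- Lagrange: every `m ≤ s^2` is the squared length of an integer vector with entries at most `s`. -/
lemma exists_vec (hd : 4 ≤ d) (s m : ℕ) (hm : m ≤ s ^ 2) :
    ∃ v : Fin d → ℤ, (∀ i, |v i| ≤ s) ∧ ∑ i, (v i) ^ 2 = m := by
  obtain ⟨a, b, c, e, h⟩ := Nat.sum_four_squares m
  have hle : ∀ x : ℕ, x ^ 2 ≤ m → x ≤ s := by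
    intro x hx
    by_contra hcon
    push Not at hcon
    nlinarith
  have ha : a ≤ s := hle a (by nlinarith [sq_nonneg b, sq_nonneg c, sq_nonneg e])
  have hb : b ≤ s := hle b (by nlinarith [sq_nonneg a, sq_nonneg c, sq_nonneg e])
  have hc : c ≤ s := hle c (by nlinarith [sq_nonneg b, sq_nonneg a, sq_nonneg e])
  have he : e ≤ s := hle e (by nlinarith [sq_nonneg b, sq_nonneg c, sq_nonneg a])
  set f : ℕ → ℤ := fun i => if i = 0 then (a : ℤ) else if i = 1 then (b : ℤ) else
    if i = 2 then (c : ℤ) else if i = 3 then (e : ℤ) else 0 with hf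
  refine ⟨fun i => f i, fun i => ?_, ?_⟩
  · simp only [hf]
    split_ifs
    · rw [abs_of_nonneg (by positivity)]; exact_mod_cast ha
    · rw [abs_of_nonneg (by positivity)]; exact_mod_cast hb
    · rw [abs_of_nonneg (by positivity)]; exact_mod_cast hc
    · rw [abs_of_nonneg (by positivity)]; exact_mod_cast he
    · simp
  · obtain ⟨r, rfl⟩ := Nat.exists_eq_add_of_le hd
    rw [Fin.sum_univ_eq_sum_range (fun i => (f i) ^ 2) (4 + r), Finset.sum_range_add]
    have h0 : ∀ x, f (4 + x) = 0 := by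
      intro x
      simp only [hf]
      rw [if_neg (by omega), if_neg (by omega), if_neg (by omega), if_neg (by omega)]
    have h1 : ∑ x ∈ Finset.range r, f (4 + x) ^ 2 = 0 :=
      Finset.sum_eq_zero (fun x _ => by rw [h0 x]; ring)
    rw [h1, add_zero]
    simp only [Finset.sum_range_succ, Finset.sum_range_zero, hf]
    norm_num
    exact_mod_cast h

/-- The counting step. -/
lemma card_bound (hd : 4 ≤ d) (t k s : ℕ) (ht : 1 ≤ t) (Q : Finset (Fin d → ℤ))
    (hgrid : ∀ z ∈ Q, ∀ i, 1 ≤ z i ∧ z i ≤ t) (hk : 3 * t ^ d ≤ (k + 1) * Q.card)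
    (hs : d * (2 * k * s) ≤ t) :
    s ^ 2 ≤ k * (Q.offDiag.image (fun ab => sq ab.1 ab.2)).card := by
  classical
  set D := Q.offDiag.image (fun ab => sq ab.1 ab.2) with hD
  have H : ∀ m : ℕ, ∃ j : ℕ, m ∈ Finset.Icc 1 (s ^ 2) →
      (1 ≤ j ∧ j ≤ k ∧ ((j ^ 2 * m : ℕ) : ℤ) ∈ D) := by
    intro m
    by_cases hm : m ∈ Finset.Icc 1 (s ^ 2)
    · obtain ⟨hm1, hm2⟩ := Finset.mem_Icc.1 hm
      obtain ⟨v, hv, hvm⟩ := exists_vec hd s m hm2
      obtain ⟨j, hj1, hjk, p, hp, q, hq, hpq⟩ := exists_multiple t k s ht Q hgrid hk hs v hv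
      refine ⟨j, fun _ => ⟨hj1, hjk, ?_⟩⟩
      have hsq : sq p q = ((j ^ 2 * m : ℕ) : ℤ) := by
        unfold sq
        push_cast
        rw [← hvm, Finset.mul_sum]
        refine Finset.sum_congr rfl fun i _ => ?_
        rw [hpq i]; ring
      rw [hD, Finset.mem_image]
      refine ⟨(p, q), Finset.mem_offDiag.2 ⟨hp, hq, ?_⟩, hsq⟩
      intro hpq'
      change p = q at hpq'
      have h0 : sq p q = 0 := by rw [hpq']; simp [sq]
      rw [h0] at hsq
      have : 0 < j ^ 2 * m := by positivity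
      have h1 : (0 : ℤ) < ((j ^ 2 * m : ℕ) : ℤ) := by exact_mod_cast this
      omega
    · exact ⟨0, fun h => absurd h hm⟩
  choose j hj using H
  have key := Finset.card_le_mul_card_image_of_maps_to (s := Finset.Icc 1 (s ^ 2)) (t := D)
    (f := fun m => ((j m ^ 2 * m : ℕ) : ℤ)) (fun m hm => (hj m hm).2.2) k (by
      intro b _
      calc ((Finset.Icc 1 (s ^ 2)).filter (fun m => ((j m ^ 2 * m : ℕ) : ℤ) = b)).card
          ≤ (Finset.Icc 1 k).card := by
            apply Finset.card_le_card_of_injOn j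
            · intro m hm
              have hm' := (Finset.mem_filter.1 (Finset.mem_coe.1 hm)).1
              exact Finset.mem_coe.2 (Finset.mem_Icc.2 ⟨(hj m hm').1, (hj m hm').2.1⟩)
            · intro m hm m' hm' hjj
              have h1 := Finset.mem_filter.1 (Finset.mem_coe.1 hm)
              have h2 := Finset.mem_filter.1 (Finset.mem_coe.1 hm')
              have h3 : ((j m ^ 2 * m : ℕ) : ℤ) = ((j m' ^ 2 * m' : ℕ) : ℤ) := h1.2.trans h2.2.symm
              have h4 : j m ^ 2 * m = j m' ^ 2 * m' := by exact_mod_cast h3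
              rw [← hjj] at h4
              have h5 : 0 < j m ^ 2 := by
                have := (hj m h1.1).1
                positivity
              exact Nat.eq_of_mul_eq_mul_left h5 h4
        _ = k := by simp)
  simpa using key

end Vale.Agent.Lib.P054
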