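import Vale.Agent.Lib.P054.Grid

/-! # P054: dense subsets of the grid, real form -/

namespace Vale.Agent.Lib.P054

open Finset

variable {d : ℕ}

/-- The integer point `z` as a point of Euclidean space. -/
noncomputable def toE (z : Fin d → ℤ) : EuclideanSpace ℝ (Fin d) :=
  WithLp.toLp 2 (fun i => (z i : ℝ))

lemma dist_sq (a b : Fin d → ℤ) : dist (toE a) (toE b) ^ 2 = ((sq a b : ℤ) : ℝ) := by
  rw [EuclideanSpace.dist_eq, Real.sq_sqrt (Finset.sum_nonneg fun i _ => sq_nonneg _)]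
  unfold sq
  push_cast
  refine Finset.sum_congr rfl fun i _ => ?_
  simp only [toE, Real.dist_eq, sq_abs]

lemma card_sq_le (Q : Finset (Fin d → ℤ)) :
    (Q.offDiag.image (fun ab => sq ab.1 ab.2)).card
      ≤ (Q.offDiag.image (fun ab => dist (toE ab.1) (toE ab.2))).card := by
  classical
  have h : Q.offDiag.image (fun ab => sq ab.1 ab.2)
      = (Q.offDiag.image (fun ab => dist (toE ab.1) (toE ab.2))).image (fun r : ℝ => ⌊r ^ 2⌋) := by
    rw [Finset.image_image]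
    refine Finset.image_congr fun ab _ => ?_
    simp only [Function.comp, dist_sq, Int.floor_intCast]
  rw [h]
  exact Finset.card_image_le

lemma card_le_pow (t : ℕ) (Q : Finset (Fin d → ℤ)) (hgrid : ∀ z ∈ Q, ∀ i, 1 ≤ z i ∧ z i ≤ t) :
    Q.card ≤ t ^ d := by
  classical
  have hsub : Q ⊆ Fintype.piFinset (fun _ : Fin d => Finset.Icc (1 : ℤ) t) := by
    intro z hz
    rw [Fintype.mem_piFinset]
    intro i
    exact Finset.mem_Icc.2 (hgrid z hz i)
  refine le_trans (Finset.card_le_card hsub) (le_of_eq ?_)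
  rw [Fintype.card_piFinset]
  simp

theorem main (hd : 4 ≤ d) (δ : ℝ) (hδ0 : 0 < δ) (hδ1 : δ ≤ 1) (t : ℕ) (Q : Finset (Fin d → ℤ))
    (hgrid : ∀ z ∈ Q, ∀ i, 1 ≤ z i ∧ z i ≤ t) (hdense : δ * (t : ℝ) ^ d ≤ Q.card)
    (h2 : 2 ≤ Q.card) :
    δ ^ 3 / (1024 * (d : ℝ) ^ 2) * (t : ℝ) ^ 2
      ≤ ((Q.offDiag.image (fun ab => dist (toE ab.1) (toE ab.2))).card : ℝ) := by
  classical
  set Δ := Q.offDiag.image (fun ab => dist (toE ab.1) (toE ab.2)) with hΔ
  have hdpos : (0 : ℝ) < d := by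
    have : 0 < d := by omega
    exact_mod_cast this
  -- `t ≥ 1`
  have hQne : Q.Nonempty := Finset.card_pos.1 (by omega)
  obtain ⟨z0, hz0⟩ := hQne
  have ht : 1 ≤ t := by
    have := hgrid z0 hz0 ⟨0, by omega⟩
    have h3 : (1 : ℤ) ≤ t := le_trans this.1 this.2
    exact_mod_cast h3
  -- at least one distance
  have hN1 : (1 : ℝ) ≤ (Δ.card : ℝ) := by
    have : 0 < Δ.card := by
      rw [Finset.card_pos, hΔ, Finset.image_nonempty]
      obtain ⟨a, ha, b, hb, hab⟩ := Finset.one_lt_card.1 (by omega : 1 < Q.card)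
      exact ⟨(a, b), Finset.mem_offDiag.2 ⟨ha, hb, hab⟩⟩
    exact_mod_cast this
  -- the number of translates
  set k : ℕ := ⌈3 / δ⌉₊ with hk
  have hk1 : (3 : ℝ) / δ ≤ k := Nat.le_ceil _
  have hk2 : (k : ℝ) < 3 / δ + 1 := Nat.ceil_lt_add_one (by positivity)
  have hkδ : (k : ℝ) * δ ≤ 4 := by
    have : (3 / δ + 1) * δ = 3 + δ := by field_simp
    nlinarith
  have hk3 : (3 : ℝ) ≤ k * δ := by
    rw [div_le_iff₀ hδ0] at hk1
    exact hk1
  have hkpos : (0 : ℝ) < k := by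
    by_contra hcon
    push Not at hcon
    nlinarith
  have hkk : 3 * t ^ d ≤ (k + 1) * Q.card := by
    have h3 : (3 : ℝ) * (t : ℝ) ^ d ≤ ((k : ℝ) + 1) * Q.card := by
      have h4 : (0 : ℝ) ≤ (t : ℝ) ^ d := by positivity
      have h5 : (0 : ℝ) ≤ (Q.card : ℝ) := by positivity
      calc (3 : ℝ) * (t : ℝ) ^ d ≤ (k * δ) * (t : ℝ) ^ d := by gcongr
        _ = k * (δ * (t : ℝ) ^ d) := by ring
        _ ≤ k * Q.card := by gcongr
        _ ≤ ((k : ℝ) + 1) * Q.card := by nlinarith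
    exact_mod_cast h3
  set s : ℕ := t / (2 * d * k) with hs
  have hkN : 0 < k := by exact_mod_cast hkpos
  have hpos : 0 < 2 * d * k := by positivity
  have hs1 : d * (2 * k * s) ≤ t := by
    have := Nat.mul_div_le t (2 * d * k)
    calc d * (2 * k * s) = 2 * d * k * (t / (2 * d * k)) := by rw [hs]; ring
      _ ≤ t := this
  have hs2 : t < 2 * d * k * (s + 1) := Nat.lt_mul_div_succ t hpos
  have hcb := card_bound hd t k s ht Q hgrid hkk hs1
  have hcb' : s ^ 2 ≤ k * Δ.card := le_trans hcb (Nat.mul_le_mul_left k (card_sq_le Q))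
  have hcbR : (s : ℝ) ^ 2 ≤ k * (Δ.card : ℝ) := by exact_mod_cast hcb'
  have hs2R : (t : ℝ) < 2 * d * k * ((s : ℝ) + 1) := by exact_mod_cast hs2
  set T : ℝ := (t : ℝ) with hT
  set K : ℝ := (k : ℝ) with hK
  set S : ℝ := (s : ℝ) with hS
  set N : ℝ := (Δ.card : ℝ) with hN
  set e : ℝ := (d : ℝ) with he
  have hT0 : 0 ≤ T := by positivity
  have hS0 : 0 ≤ S := by positivity
  have hδK : 0 ≤ K * δ := by positivity
  have goal : δ ^ 3 * T ^ 2 ≤ 1024 * e ^ 2 * N := by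
    by_cases hcase : 4 * e * K ≤ T
    · have h1 : T ≤ S * (4 * e * K) := by nlinarith
      have h2 : T ^ 2 ≤ (S * (4 * e * K)) ^ 2 := pow_le_pow_left₀ hT0 h1 2
      have h3 : (S * (4 * e * K)) ^ 2 ≤ (K * N) * (4 * e * K) ^ 2 := by
        rw [mul_pow]
        exact mul_le_mul_of_nonneg_right hcbR (by positivity)
      have h4 : (K * δ) ^ 3 ≤ 4 ^ 3 := pow_le_pow_left₀ hδK hkδ 3
      calc δ ^ 3 * T ^ 2 ≤ δ ^ 3 * ((K * N) * (4 * e * K) ^ 2) := by
            apply mul_le_mul_of_nonneg_left (le_trans h2 h3) (by positivity)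
        _ = (K * δ) ^ 3 * (16 * e ^ 2 * N) := by ring
        _ ≤ 4 ^ 3 * (16 * e ^ 2 * N) := by
            apply mul_le_mul_of_nonneg_right h4 (by positivity)
        _ = 1024 * e ^ 2 * N := by ring
    · push Not at hcase
      have h2 : T ^ 2 ≤ (4 * e * K) ^ 2 := pow_le_pow_left₀ hT0 hcase.le 2
      have h4 : (K * δ) ^ 2 ≤ 4 ^ 2 := pow_le_pow_left₀ hδK hkδ 2
      calc δ ^ 3 * T ^ 2 ≤ δ ^ 3 * (4 * e * K) ^ 2 := by
            apply mul_le_mul_of_nonneg_left h2 (by positivity)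
        _ = (K * δ) ^ 2 * (16 * e ^ 2 * δ) := by ring
        _ ≤ 4 ^ 2 * (16 * e ^ 2 * δ) := by
            apply mul_le_mul_of_nonneg_right h4 (by positivity)
        _ ≤ 4 ^ 2 * (16 * e ^ 2 * 1) := by gcongr
        _ ≤ 1024 * e ^ 2 * N := by nlinarith [sq_nonneg e]
  rw [div_mul_eq_mul_div, div_le_iff₀ (by positivity)]
  linarith

theorem main_card (hd : 4 ≤ d) (δ : ℝ) (hδ0 : 0 < δ) (hδ1 : δ ≤ 1) (t : ℕ)
    (Q : Finset (Fin d → ℤ))
    (hgrid : ∀ z ∈ Q, ∀ i, 1 ≤ z i ∧ z i ≤ t) (hdense : δ * (t : ℝ) ^ d ≤ Q.card)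
    (h2 : 2 ≤ Q.card) :
    δ ^ 3 / (1024 * (d : ℝ) ^ 2) * (Q.card : ℝ) ^ ((2 : ℝ) / d)
      ≤ ((Q.offDiag.image (fun ab => dist (toE ab.1) (toE ab.2))).card : ℝ) := by
  refine le_trans ?_ (main hd δ hδ0 hδ1 t Q hgrid hdense h2)
  have hdpos : (0 : ℝ) < d := by
    have : 0 < d := by omega
    exact_mod_cast this
  apply mul_le_mul_of_nonneg_left _ (by positivity)
  have h1 : (Q.card : ℝ) ≤ (t : ℝ) ^ d := by exact_mod_cast card_le_pow t Q hgrid
  calc (Q.card : ℝ) ^ ((2 : ℝ) / d) ≤ ((t : ℝ) ^ d) ^ ((2 : ℝ) / d) :=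
        Real.rpow_le_rpow (by positivity) h1 (by positivity)
    _ = (t : ℝ) ^ 2 := by
        rw [← Real.rpow_natCast (t : ℝ) d, ← Real.rpow_mul (by positivity),
          mul_div_cancel₀ _ hdpos.ne']
        norm_num

end Vale.Agent.Lib.P054
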