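import Vale.Agent.Lib.P054.Main

/-! # P054: pinned distances in dense subsets of the integer grid -/

namespace Vale.Agent.Lib.P054

open Finset

variable {d : ℕ}

/-- The points of `Q` that see no point of `Q` at `j v`, `1 ≤ j ≤ k`. -/
noncomputable def iso (Q : Finset (Fin d → ℤ)) (k : ℕ) (v : Fin d → ℤ) : Finset (Fin d → ℤ) :=
  open Classical in
  Q.filter (fun p => ∀ j : ℕ, 1 ≤ j → j ≤ k → (fun i => p i + j * v i) ∉ Q)

/-- The translates of the isolated points are pairwise disjoint, so there are few of them. -/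
lemma card_iso_lt (t k s : ℕ) (ht : 1 ≤ t) (Q : Finset (Fin d → ℤ))
    (hgrid : ∀ z ∈ Q, ∀ i, 1 ≤ z i ∧ z i ≤ t)
    (hs : d * (2 * k * s) ≤ t) (v : Fin d → ℤ) (hv : ∀ i, |v i| ≤ s) :
    (k + 1) * (iso Q k v).card < 3 * t ^ d := by
  classical
  set B : Finset (Fin d → ℤ) :=
    Fintype.piFinset (fun _ => Finset.Icc (1 - (k * s : ℤ)) (t + (k * s : ℤ))) with hB
  have hBcard : B.card = (t + 2 * k * s) ^ d := by
    rw [hB, Fintype.card_piFinset]
    simp only [Int.card_Icc, Finset.prod_const, Finset.card_univ, Fintype.card_fin]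
    congr 1
    have : (t : ℤ) + (k * s : ℤ) + 1 - (1 - (k * s : ℤ)) = ((t + 2 * k * s : ℕ) : ℤ) := by
      push_cast; ring
    rw [this, Int.toNat_natCast]
  have hmemI : ∀ p, p ∈ iso Q k v ↔
      p ∈ Q ∧ ∀ j : ℕ, 1 ≤ j → j ≤ k → (fun i => p i + j * v i) ∉ Q := by
    intro p
    simp only [iso, Finset.mem_filter]
  have hle : ((Finset.range (k + 1)) ×ˢ (iso Q k v)).card ≤ B.card := by
    apply Finset.card_le_card_of_injOn
      (fun jp : ℕ × (Fin d → ℤ) => fun i => jp.2 i + jp.1 * v i)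
    · intro jp hjp
      have hjp' := Finset.mem_product.1 (Finset.mem_coe.1 hjp)
      have hj : jp.1 ≤ k := Nat.lt_succ_iff.1 (Finset.mem_range.1 hjp'.1)
      rw [Finset.mem_coe, hB, Fintype.mem_piFinset]
      intro i
      obtain ⟨h1, h2⟩ := hgrid _ ((hmemI _).1 hjp'.2).1 i
      obtain ⟨h3, h4⟩ := abs_le.1 (hv i)
      have hjk : (jp.1 : ℤ) ≤ k := by exact_mod_cast hj
      have hj0 : (0 : ℤ) ≤ jp.1 := by positivity
      have hs0 : (0 : ℤ) ≤ s := by positivity
      have h5 : (jp.1 : ℤ) * v i ≤ k * s := by nlinarith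
      have h6 : -(k * s : ℤ) ≤ (jp.1 : ℤ) * v i := by nlinarith
      rw [Finset.mem_Icc]
      constructor <;> linarith
    · intro x hx y hy hf
      have hx' := Finset.mem_product.1 (Finset.mem_coe.1 hx)
      have hy' := Finset.mem_product.1 (Finset.mem_coe.1 hy)
      have hxk : x.1 ≤ k := Nat.lt_succ_iff.1 (Finset.mem_range.1 hx'.1)
      have hyk : y.1 ≤ k := Nat.lt_succ_iff.1 (Finset.mem_range.1 hy'.1)
      have hfi : ∀ i, x.2 i + x.1 * v i = y.2 i + y.1 * v i := fun i => congrFun hf i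
      rcases lt_trichotomy x.1 y.1 with h | h | h
      · exfalso
        apply ((hmemI _).1 hy'.2).2 (y.1 - x.1) (by omega) (by omega)
        have : (fun i => y.2 i + ((y.1 - x.1 : ℕ) : ℤ) * v i) = x.2 := by
          funext i
          have := hfi i
          rw [Nat.cast_sub h.le]
          linarith
        rw [this]
        exact ((hmemI _).1 hx'.2).1
      · apply Prod.ext h
        funext i
        have := hfi i
        rw [h] at this
        linarith
      · exfalso
        apply ((hmemI _).1 hx'.2).2 (x.1 - y.1) (by omega) (by omega)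
        have : (fun i => x.2 i + ((x.1 - y.1 : ℕ) : ℤ) * v i) = y.2 := by
          funext i
          have := hfi i
          rw [Nat.cast_sub h.le]
          linarith
        rw [this]
        exact ((hmemI _).1 hy'.2).1
  rw [Finset.card_product, Finset.card_range, hBcard] at hle
  exact lt_of_le_of_lt hle (pow_lt_three t (2 * k * s) ht hs)

/-- For a fixed pin `p`: the good `m` are at most `k` times the number of pinned distances. -/
lemma card_good_le (k s : ℕ) (Q : Finset (Fin d → ℤ)) (v : ℕ → Fin d → ℤ)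
    (hv : ∀ m, m ≤ s ^ 2 → ∑ i, (v m i) ^ 2 = m) (p : Fin d → ℤ) (hp : p ∈ Q) :
    ((Finset.Icc 1 (s ^ 2)).filter (fun m => p ∉ iso Q k (v m))).card
      ≤ k * ((Q.erase p).image (fun q => sq q p)).card := by
  classical
  set D := (Q.erase p).image (fun q => sq q p) with hD
  set M := (Finset.Icc 1 (s ^ 2)).filter (fun m => p ∉ iso Q k (v m)) with hM
  have H : ∀ m : ℕ, ∃ j : ℕ, m ∈ M → (1 ≤ j ∧ j ≤ k ∧ ((j ^ 2 * m : ℕ) : ℤ) ∈ D) := by
    intro m
    by_cases hm : m ∈ M
    · obtain ⟨hm1, hm2⟩ := Finset.mem_filter.1 hm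
      obtain ⟨hm3, hm4⟩ := Finset.mem_Icc.1 hm1
      have h1 : ¬ (p ∈ Q ∧ ∀ j : ℕ, 1 ≤ j → j ≤ k → (fun i => p i + j * v m i) ∉ Q) := by
        intro h
        apply hm2
        simp only [iso, Finset.mem_filter]
        exact h
      push Not at h1
      obtain ⟨j, hj1, hjk, hq⟩ := h1 hp
      refine ⟨j, fun _ => ⟨hj1, hjk, ?_⟩⟩
      have hsq : sq (fun i => p i + j * v m i) p = ((j ^ 2 * m : ℕ) : ℤ) := by
        unfold sq
        push_cast
        rw [← hv m hm4, Finset.mul_sum]
        refine Finset.sum_congr rfl fun i _ => ?_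
        ring
      rw [hD, Finset.mem_image]
      refine ⟨_, Finset.mem_erase.2 ⟨?_, hq⟩, hsq⟩
      intro hpq'
      have h0 : sq (fun i => p i + j * v m i) p = 0 := by rw [hpq']; simp [sq]
      rw [h0] at hsq
      have : 0 < j ^ 2 * m := by positivity
      have h1 : (0 : ℤ) < ((j ^ 2 * m : ℕ) : ℤ) := by exact_mod_cast this
      omega
    · exact ⟨0, fun h => absurd h hm⟩
  choose j hj using H
  exact Finset.card_le_mul_card_image_of_maps_to (s := M) (t := D)
    (f := fun m => ((j m ^ 2 * m : ℕ) : ℤ)) (fun m hm => (hj m hm).2.2) k (by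
      intro b _
      calc (M.filter (fun m => ((j m ^ 2 * m : ℕ) : ℤ) = b)).card
          ≤ (Finset.Icc 1 k).card := by
            apply Finset.card_le_card_of_injOn j
            · intro m hm
              have hm' := (Finset.mem_filter.1 (Finset.mem_coe.1 hm)).1
              exact Finset.mem_coe.2 (Finset.mem_Icc.2 ⟨(hj m hm').1, (hj m hm').2.1⟩)
            · intro m hm m' hm' hjj
              have h1 := Finset.mem_filter.1 (Finset.mem_coe.1 hm)
              have h2 := Finset.mem_filter.1 (Finset.mem_coe.1 hm')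
              have h3 : ((j m ^ 2 * m : ℕ) : ℤ) = ((j m' ^ 2 * m' : ℕ) : ℤ) := h1.2.trans h2.2.symm
              have h4 : j m ^ 2 * m = j m' ^ 2 * m' := by exact_mod_cast h3
              rw [← hjj] at h4
              have h5 : 0 < j m ^ 2 := by
                have := (hj m h1.1).1
                positivity
              exact Nat.eq_of_mul_eq_mul_left h5 h4
        _ = k := by simp)

/-- Double counting: some pin sees many distances. -/
lemma pinned_bound (hd : 4 ≤ d) (t k s : ℕ) (ht : 1 ≤ t) (Q : Finset (Fin d → ℤ))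
    (hQ : Q.Nonempty) (hgrid : ∀ z ∈ Q, ∀ i, 1 ≤ z i ∧ z i ≤ t)
    (hk : 6 * t ^ d ≤ (k + 1) * Q.card) (hs : d * (2 * k * s) ≤ t) :
    ∃ p ∈ Q, s ^ 2 ≤ 2 * (k * ((Q.erase p).image (fun q => sq q p)).card) := by
  classical
  have Hv : ∀ m : ℕ, ∃ v : Fin d → ℤ, m ≤ s ^ 2 → ((∀ i, |v i| ≤ s) ∧ ∑ i, (v i) ^ 2 = m) := by
    intro m
    by_cases hm : m ≤ s ^ 2
    · obtain ⟨v, h1, h2⟩ := exists_vec hd s m hm
      exact ⟨v, fun _ => ⟨h1, h2⟩⟩
    · exact ⟨0, fun h => absurd h hm⟩
  choose v hv using Hv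
  by_contra hcon
  push Not at hcon
  -- each `m` has many good pins
  have hG : ∀ m ∈ Finset.Icc 1 (s ^ 2),
      Q.card ≤ 2 * (Q.filter (fun p => p ∉ iso Q k (v m))).card := by
    intro m hm
    have hm2 := (Finset.mem_Icc.1 hm).2
    have h1 := card_iso_lt t k s ht Q hgrid hs (v m) (hv m hm2).1
    have h2 : (Q.filter (fun p => p ∈ iso Q k (v m))).card
        + (Q.filter (fun p => p ∉ iso Q k (v m))).card = Q.card :=
      Finset.card_filter_add_card_filter_not _
    have h3 : (Q.filter (fun p => p ∈ iso Q k (v m))).card ≤ (iso Q k (v m)).card := by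
      apply Finset.card_le_card
      intro p hp
      exact (Finset.mem_filter.1 hp).2
    have h4 : (k + 1) * (2 * (iso Q k (v m)).card) < (k + 1) * Q.card := by nlinarith
    have h5 : 2 * (iso Q k (v m)).card < Q.card := Nat.lt_of_mul_lt_mul_left h4
    omega
  have hsum1 : ∑ p ∈ Q, 2 * ((Finset.Icc 1 (s ^ 2)).filter (fun m => p ∉ iso Q k (v m))).card
      < ∑ _p ∈ Q, s ^ 2 := by
    apply Finset.sum_lt_sum_of_nonempty hQ
    intro p hp
    have h1 := card_good_le k s Q v (fun m hm => (hv m hm).2) p hp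
    have h2 := hcon p hp
    omega
  have hsum2 : ∑ p ∈ Q, ((Finset.Icc 1 (s ^ 2)).filter (fun m => p ∉ iso Q k (v m))).card
      = ∑ m ∈ Finset.Icc 1 (s ^ 2), (Q.filter (fun p => p ∉ iso Q k (v m))).card := by
    simp only [Finset.card_filter]
    exact Finset.sum_comm
  have hsum3 : ∑ _m ∈ Finset.Icc 1 (s ^ 2), Q.card
      ≤ ∑ m ∈ Finset.Icc 1 (s ^ 2), 2 * (Q.filter (fun p => p ∉ iso Q k (v m))).card :=
    Finset.sum_le_sum hG
  rw [← Finset.mul_sum, hsum2] at hsum1
  rw [← Finset.mul_sum] at hsum3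
  simp only [Finset.sum_const, smul_eq_mul, Nat.card_Icc] at hsum1 hsum3
  have : (s ^ 2 + 1 - 1) * Q.card = Q.card * s ^ 2 := by
    rw [Nat.add_sub_cancel, mul_comm]
  omega

end Vale.Agent.Lib.P054
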