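import Vale.Agent.Lib.P054.Pinned

/-! # P054: pinned distances in dense subsets of the grid, real form -/

namespace Vale.Agent.Lib.P054

open Finset

variable {d : ℕ}

lemma card_sq_le_pin (Q : Finset (Fin d → ℤ)) (p : Fin d → ℤ) :
    ((Q.erase p).image (fun q => sq q p)).card
      ≤ ((Q.erase p).image (fun q => dist (toE q) (toE p))).card := by
  classical
  have h : (Q.erase p).image (fun q => sq q p)
      = ((Q.erase p).image (fun q => dist (toE q) (toE p))).image (fun r : ℝ => ⌊r ^ 2⌋) := by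
    rw [Finset.image_image]
    refine Finset.image_congr fun q _ => ?_
    simp only [Function.comp, dist_sq, Int.floor_intCast]
  rw [h]
  exact Finset.card_image_le

theorem pinned_main (hd : 4 ≤ d) (δ : ℝ) (hδ0 : 0 < δ) (hδ1 : δ ≤ 1) (t : ℕ)
    (Q : Finset (Fin d → ℤ))
    (hgrid : ∀ z ∈ Q, ∀ i, 1 ≤ z i ∧ z i ≤ t) (hdense : δ * (t : ℝ) ^ d ≤ Q.card)
    (h2 : 2 ≤ Q.card) :
    ∃ p ∈ Q, δ ^ 3 / (11000 * (d : ℝ) ^ 2) * (t : ℝ) ^ 2
      ≤ (((Q.erase p).image (fun q => dist (toE q) (toE p))).card : ℝ) := by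
  classical
  have hdpos : (0 : ℝ) < d := by
    have : 0 < d := by omega
    exact_mod_cast this
  have hQne : Q.Nonempty := Finset.card_pos.1 (by omega)
  obtain ⟨z0, hz0⟩ := hQne
  have ht : 1 ≤ t := by
    have := hgrid z0 hz0 ⟨0, by omega⟩
    have h3 : (1 : ℤ) ≤ t := le_trans this.1 this.2
    exact_mod_cast h3
  set k : ℕ := ⌈6 / δ⌉₊ with hk
  have hk1 : (6 : ℝ) / δ ≤ k := Nat.le_ceil _
  have hk2 : (k : ℝ) < 6 / δ + 1 := Nat.ceil_lt_add_one (by positivity)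
  have hkδ : (k : ℝ) * δ ≤ 7 := by
    have : (6 / δ + 1) * δ = 6 + δ := by field_simp
    nlinarith
  have hk3 : (6 : ℝ) ≤ k * δ := by
    rw [div_le_iff₀ hδ0] at hk1
    exact hk1
  have hkpos : (0 : ℝ) < k := by
    by_contra hcon
    push Not at hcon
    nlinarith
  have hkk : 6 * t ^ d ≤ (k + 1) * Q.card := by
    have h3 : (6 : ℝ) * (t : ℝ) ^ d ≤ ((k : ℝ) + 1) * Q.card := by
      have h4 : (0 : ℝ) ≤ (t : ℝ) ^ d := by positivity
      have h5 : (0 : ℝ) ≤ (Q.card : ℝ) := by positivity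
      calc (6 : ℝ) * (t : ℝ) ^ d ≤ (k * δ) * (t : ℝ) ^ d := by gcongr
        _ = k * (δ * (t : ℝ) ^ d) := by ring
        _ ≤ k * Q.card := by gcongr
        _ ≤ ((k : ℝ) + 1) * Q.card := by nlinarith
    exact_mod_cast h3
  set s : ℕ := t / (2 * d * k) with hs
  have hkN : 0 < k := by exact_mod_cast hkpos
  have hpos : 0 < 2 * d * k := by positivity
  have hs1 : d * (2 * k * s) ≤ t := by
    have := Nat.mul_div_le t (2 * d * k)
    calc d * (2 * k * s) = 2 * d * k * (t / (2 * d * k)) := by rw [hs]; ring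
      _ ≤ t := this
  have hs2 : t < 2 * d * k * (s + 1) := Nat.lt_mul_div_succ t hpos
  obtain ⟨p, hp, hcb⟩ := pinned_bound hd t k s ht Q ⟨z0, hz0⟩ hgrid hkk hs1
  refine ⟨p, hp, ?_⟩
  set Δ := (Q.erase p).image (fun q => dist (toE q) (toE p)) with hΔ
  have hN1 : (1 : ℝ) ≤ (Δ.card : ℝ) := by
    have : 0 < Δ.card := by
      rw [Finset.card_pos, hΔ, Finset.image_nonempty, ← Finset.card_pos, Finset.card_erase_of_mem hp]
      omega
    exact_mod_cast this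
  have hcb' : s ^ 2 ≤ 2 * (k * Δ.card) :=
    le_trans hcb (Nat.mul_le_mul_left 2 (Nat.mul_le_mul_left k (card_sq_le_pin Q p)))
  have hcbR : (s : ℝ) ^ 2 ≤ 2 * (k * (Δ.card : ℝ)) := by exact_mod_cast hcb'
  have hs2R : (t : ℝ) < 2 * d * k * ((s : ℝ) + 1) := by exact_mod_cast hs2
  set T : ℝ := (t : ℝ) with hT
  set K : ℝ := (k : ℝ) with hK
  set S : ℝ := (s : ℝ) with hS
  set N : ℝ := (Δ.card : ℝ) with hN
  set e : ℝ := (d : ℝ) with he
  have hT0 : 0 ≤ T := by positivity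
  have hS0 : 0 ≤ S := by positivity
  have hδK : 0 ≤ K * δ := by positivity
  have hN0 : 0 ≤ N := by linarith
  have goal : δ ^ 3 * T ^ 2 ≤ 11000 * e ^ 2 * N := by
    by_cases hcase : 4 * e * K ≤ T
    · have h1 : T ≤ S * (4 * e * K) := by nlinarith
      have h2 : T ^ 2 ≤ (S * (4 * e * K)) ^ 2 := pow_le_pow_left₀ hT0 h1 2
      have h3 : (S * (4 * e * K)) ^ 2 ≤ (2 * (K * N)) * (4 * e * K) ^ 2 := by
        rw [mul_pow]
        exact mul_le_mul_of_nonneg_right hcbR (by positivity)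
      have h4 : (K * δ) ^ 3 ≤ 7 ^ 3 := pow_le_pow_left₀ hδK hkδ 3
      calc δ ^ 3 * T ^ 2 ≤ δ ^ 3 * ((2 * (K * N)) * (4 * e * K) ^ 2) := by
            apply mul_le_mul_of_nonneg_left (le_trans h2 h3) (by positivity)
        _ = (K * δ) ^ 3 * (32 * e ^ 2 * N) := by ring
        _ ≤ 7 ^ 3 * (32 * e ^ 2 * N) := by
            apply mul_le_mul_of_nonneg_right h4 (by positivity)
        _ ≤ 11000 * e ^ 2 * N := by nlinarith [mul_nonneg (sq_nonneg e) hN0]
    · push Not at hcase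
      have h2 : T ^ 2 ≤ (4 * e * K) ^ 2 := pow_le_pow_left₀ hT0 hcase.le 2
      have h4 : (K * δ) ^ 2 ≤ 7 ^ 2 := pow_le_pow_left₀ hδK hkδ 2
      calc δ ^ 3 * T ^ 2 ≤ δ ^ 3 * (4 * e * K) ^ 2 := by
            apply mul_le_mul_of_nonneg_left h2 (by positivity)
        _ = (K * δ) ^ 2 * (16 * e ^ 2 * δ) := by ring
        _ ≤ 7 ^ 2 * (16 * e ^ 2 * δ) := by
            apply mul_le_mul_of_nonneg_right h4 (by positivity)
        _ ≤ 7 ^ 2 * (16 * e ^ 2 * 1) := by gcongr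
        _ ≤ 11000 * e ^ 2 * N := by nlinarith [sq_nonneg e]
  rw [div_mul_eq_mul_div, div_le_iff₀ (by positivity)]
  linarith

theorem pinned_points (hd : 4 ≤ d) (δ : ℝ) (hδ0 : 0 < δ) (hδ1 : δ ≤ 1) (t : ℕ)
    (P : Finset (EuclideanSpace ℝ (Fin d)))
    (hgrid : ∀ p ∈ P, ∀ i, ∃ z : ℤ, 1 ≤ z ∧ z ≤ t ∧ p i = z)
    (hdense : δ * (t : ℝ) ^ d ≤ P.card) (h2 : 2 ≤ P.card) :
    ∃ p ∈ P,
      δ ^ 3 / (11000 * (d : ℝ) ^ 2) * (t : ℝ) ^ 2
        ≤ (((P.erase p).image (fun q => dist q p)).card : ℝ) ∧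
      δ ^ 3 / (11000 * (d : ℝ) ^ 2) * (P.card : ℝ) ^ ((2 : ℝ) / d)
        ≤ (((P.erase p).image (fun q => dist q p)).card : ℝ) := by
  classical
  set φ : EuclideanSpace ℝ (Fin d) → (Fin d → ℤ) := fun p i => ⌊p i⌋ with hφ
  have hback : ∀ p ∈ P, toE (φ p) = p := by
    intro p hp
    ext i
    obtain ⟨z, -, -, hz⟩ := hgrid p hp i
    simp only [toE, hφ, hz, Int.floor_intCast]
  have hinj : Set.InjOn φ (P : Set (EuclideanSpace ℝ (Fin d))) := by
    intro p hp q hq h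
    rw [← hback p hp, ← hback q hq, h]
  set Q : Finset (Fin d → ℤ) := P.image φ with hQ
  have hcard : Q.card = P.card := Finset.card_image_of_injOn hinj
  have hgridQ : ∀ z ∈ Q, ∀ i, 1 ≤ z i ∧ z i ≤ t := by
    intro z hz i
    obtain ⟨p, hp, rfl⟩ := Finset.mem_image.1 hz
    obtain ⟨w, h1, h3, hw⟩ := hgrid p hp i
    simp only [hφ, hw, Int.floor_intCast]
    exact ⟨h1, h3⟩
  have hdenseQ : δ * (t : ℝ) ^ d ≤ Q.card := by rw [hcard]; exact hdense
  have h2Q : 2 ≤ Q.card := by rw [hcard]; exact h2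
  obtain ⟨a, ha, hbound⟩ := pinned_main hd δ hδ0 hδ1 t Q hgridQ hdenseQ h2Q
  obtain ⟨p, hp, rfl⟩ := Finset.mem_image.1 ha
  have hsub : (Q.erase (φ p)).image (fun q => dist (toE q) (toE (φ p)))
      ⊆ (P.erase p).image (fun q => dist q p) := by
    intro r hr
    obtain ⟨b, hb, rfl⟩ := Finset.mem_image.1 hr
    obtain ⟨hne, hbQ⟩ := Finset.mem_erase.1 hb
    obtain ⟨q, hq, rfl⟩ := Finset.mem_image.1 hbQ
    refine Finset.mem_image.2 ⟨q, Finset.mem_erase.2 ⟨?_, hq⟩, ?_⟩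
    · intro hqp
      exact hne (by rw [hqp])
    · simp only [hback p hp, hback q hq]
  have hle : (((Q.erase (φ p)).image (fun q => dist (toE q) (toE (φ p)))).card : ℝ)
      ≤ (((P.erase p).image (fun q => dist q p)).card : ℝ) := by
    exact_mod_cast Finset.card_le_card hsub
  have hfirst := le_trans hbound hle
  refine ⟨p, hp, hfirst, le_trans ?_ hfirst⟩
  have hdpos : (0 : ℝ) < d := by
    have : 0 < d := by omega
    exact_mod_cast this
  apply mul_le_mul_of_nonneg_left _ (by positivity)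
  have h1 : (P.card : ℝ) ≤ (t : ℝ) ^ d := by
    rw [← hcard]
    exact_mod_cast card_le_pow t Q hgridQ
  calc (P.card : ℝ) ^ ((2 : ℝ) / d) ≤ ((t : ℝ) ^ d) ^ ((2 : ℝ) / d) :=
        Real.rpow_le_rpow (by positivity) h1 (by positivity)
    _ = (t : ℝ) ^ 2 := by
        rw [← Real.rpow_natCast (t : ℝ) d, ← Real.rpow_mul (by positivity),
          mul_div_cancel₀ _ hdpos.ne']
        norm_num

end Vale.Agent.Lib.P054
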