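import Vale.Agent.Lib.P054.Main

/-! # P054: dense subsets of the grid, stated for finite subsets of Euclidean space -/

namespace Vale.Agent.Lib.P054

open Finset

variable {d : ℕ}

theorem main_points (hd : 4 ≤ d) (δ : ℝ) (hδ0 : 0 < δ) (hδ1 : δ ≤ 1) (t : ℕ)
    (P : Finset (EuclideanSpace ℝ (Fin d)))
    (hgrid : ∀ p ∈ P, ∀ i, ∃ z : ℤ, 1 ≤ z ∧ z ≤ t ∧ p i = z)
    (hdense : δ * (t : ℝ) ^ d ≤ P.card) (h2 : 2 ≤ P.card) :
    δ ^ 3 / (1024 * (d : ℝ) ^ 2) * (t : ℝ) ^ 2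
        ≤ ((P.offDiag.image (fun pq => dist pq.1 pq.2)).card : ℝ) ∧
    δ ^ 3 / (1024 * (d : ℝ) ^ 2) * (P.card : ℝ) ^ ((2 : ℝ) / d)
        ≤ ((P.offDiag.image (fun pq => dist pq.1 pq.2)).card : ℝ) := by
  classical
  set φ : EuclideanSpace ℝ (Fin d) → (Fin d → ℤ) := fun p i => ⌊p i⌋ with hφ
  have hback : ∀ p ∈ P, toE (φ p) = p := by
    intro p hp
    ext i
    obtain ⟨z, -, -, hz⟩ := hgrid p hp i
    simp only [toE, hφ, hz, Int.floor_intCast]
  have hinj : Set.InjOn φ (P : Set (EuclideanSpace ℝ (Fin d))) := by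
    intro p hp q hq h
    rw [← hback p hp, ← hback q hq, h]
  set Q : Finset (Fin d → ℤ) := P.image φ with hQ
  have hcard : Q.card = P.card := Finset.card_image_of_injOn hinj
  have hgridQ : ∀ z ∈ Q, ∀ i, 1 ≤ z i ∧ z i ≤ t := by
    intro z hz i
    obtain ⟨p, hp, rfl⟩ := Finset.mem_image.1 hz
    obtain ⟨w, h1, h3, hw⟩ := hgrid p hp i
    simp only [hφ, hw, Int.floor_intCast]
    exact ⟨h1, h3⟩
  have hsub : Q.offDiag.image (fun ab => dist (toE ab.1) (toE ab.2))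
      ⊆ P.offDiag.image (fun pq => dist pq.1 pq.2) := by
    intro r hr
    obtain ⟨⟨a, b⟩, hab, rfl⟩ := Finset.mem_image.1 hr
    obtain ⟨ha, hb, hne⟩ := Finset.mem_offDiag.1 hab
    obtain ⟨p, hp, rfl⟩ := Finset.mem_image.1 ha
    obtain ⟨q, hq, rfl⟩ := Finset.mem_image.1 hb
    refine Finset.mem_image.2 ⟨(p, q), Finset.mem_offDiag.2 ⟨hp, hq, ?_⟩, ?_⟩
    · intro hpq
      change p = q at hpq
      exact hne (by rw [hpq])
    · simp only [hback p hp, hback q hq]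
  have hle : ((Q.offDiag.image (fun ab => dist (toE ab.1) (toE ab.2))).card : ℝ)
      ≤ ((P.offDiag.image (fun pq => dist pq.1 pq.2)).card : ℝ) := by
    exact_mod_cast Finset.card_le_card hsub
  have hdenseQ : δ * (t : ℝ) ^ d ≤ Q.card := by rw [hcard]; exact hdense
  have h2Q : 2 ≤ Q.card := by rw [hcard]; exact h2
  refine ⟨le_trans (main hd δ hδ0 hδ1 t Q hgridQ hdenseQ h2Q) hle, ?_⟩
  have := main_card hd δ hδ0 hδ1 t Q hgridQ hdenseQ h2Q
  rw [hcard] at this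
  exact le_trans this hle

end Vale.Agent.Lib.P054
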